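import Vale.Agent.P216.H901.Sp

/-!
# Theorem B of P216, block [EXC]: strong excision for the pieces over `D₊`, `D₋`

For `X t` compact, `ev` continuous, `D₊ ∪ D₋ = M` closed:
`H^q(X t, X t over D₋) → H^q(X t over D₊, X t over D₊ ∩ D₋)` is bijective, and its inverse is
natural in `t`.
-/

set_option linter.all false

open Set

namespace Vale.Agent.P216.H83

open Vale.Agent.P216.AS Vale.Agent.P216.H901

section Gen

variable {E M : Type} [MetricSpace E] {k : Type} [Field k] {I : Type} {a : I → E → E} {χ : I → k}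

theorem inv_tr (X : Set E) : Inv (tr E) X := fun i => i.elim

theorem tw_tr (h2 : (2 : k) ≠ 0) (X : Set E) : Tw (tr E) (on k) X := Tw.of_isEmpty h2

theorem ovr_sub (ev : E → M) (X : ℝ → Set E) (D : Set M) (t : ℝ) : ovr ev X D t ⊆ X t :=
  fun _ h => h.1

theorem ovr_mono {ev : E → M} {X : ℝ → Set E} {D D' : Set M} {s t : ℝ} (h : X s ⊆ X t)
    (hD : D ⊆ D') : ovr ev X D s ⊆ ovr ev X D' t := fun _ hw => ⟨h hw.1, hD hw.2⟩

theorem ovr_inter {ev : E → M} {X : ℝ → Set E} {D D' : Set M} {t : ℝ} :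
    ovr ev X (D ∩ D') t = ovr ev X D' t ∩ ovr ev X D t := by
  ext w
  exact ⟨fun h => ⟨⟨h.1, h.2.2⟩, h.1, h.2.1⟩, fun h => ⟨h.1.1, h.2.2, h.1.2⟩⟩

theorem ovr_union {ev : E → M} {X : ℝ → Set E} {D D' : Set M} (hU : D ∪ D' = univ) {t : ℝ} :
    X t = ovr ev X D' t ∪ ovr ev X D t := by
  ext w
  constructor
  · intro h
    have : ev w ∈ D ∪ D' := hU ▸ mem_univ _
    exact this.elim (fun h' => Or.inr ⟨h, h'⟩) fun h' => Or.inl ⟨h, h'⟩
  · rintro (h | h)
    exacts [h.1, h.1]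

theorem ovr_compact [TopologicalSpace M] {ev : E → M} (hev : Continuous ev) {X : ℝ → Set E}
    {D : Set M} (hD : IsClosed D) {t : ℝ} (hX : IsCompact (X t)) : IsCompact (ovr ev X D t) :=
  hX.inter_right (hD.preimage hev)

/-- **Strong excision**, for any symmetry. -/
theorem exc_bijective' [TopologicalSpace M] {ev : E → M} (hev : Continuous ev) {X : ℝ → Set E}
    {Dp Dm : Set M} (hp : IsClosed Dp) (hm : IsClosed Dm) (hU : Dp ∪ Dm = univ) {t : ℝ}
    (hX : IsCompact (X t)) (h : Tw a χ (X t)) (ip : Inv a (ovr ev X Dp t))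
    (im : Inv a (ovr ev X Dm t)) (q : ℕ) :
    Function.Bijective (resR (ovr_sub ev X Dp t)
      (ovr_mono (subset_refl _) inter_subset_right : ovr ev X (Dp ∩ Dm) t ⊆ ovr ev X Dm t) q :
      Hr a χ (X t) (ovr ev X Dm t) q →ₗ[k] Hr a χ (ovr ev X Dp t) (ovr ev X (Dp ∩ Dm) t) q) :=
  strong_excision h (ovr_compact hev hm hX) (ovr_compact hev hp hX) im ip (ovr_union hU) ovr_inter
    _ _ q

/-- **Strong excision**, trivial symmetry. -/
theorem exc_bijective [TopologicalSpace M] (h2 : (2 : k) ≠ 0) {ev : E → M} (hev : Continuous ev)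
    {X : ℝ → Set E} {Dp Dm : Set M} (hp : IsClosed Dp) (hm : IsClosed Dm)
    (hU : Dp ∪ Dm = univ) {t : ℝ} (hX : IsCompact (X t)) (q : ℕ) :
    Function.Bijective (resR (ovr_sub ev X Dp t)
      (ovr_mono (subset_refl _) inter_subset_right : ovr ev X (Dp ∩ Dm) t ⊆ ovr ev X Dm t) q :
      Hr (tr E) (on k) (X t) (ovr ev X Dm t) q →ₗ[k]
        Hr (tr E) (on k) (ovr ev X Dp t) (ovr ev X (Dp ∩ Dm) t) q) :=
  exc_bijective' hev hp hm hU hX (tw_tr h2 _) (inv_tr _) (inv_tr _) q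

/-- The excision isomorphism, from the piece over `D₊` to the whole space. -/
noncomputable def excE [TopologicalSpace M] (h2 : (2 : k) ≠ 0) {ev : E → M} (hev : Continuous ev)
    {X : ℝ → Set E} {Dp Dm : Set M} (hp : IsClosed Dp) (hm : IsClosed Dm)
    (hU : Dp ∪ Dm = univ) {t : ℝ} (hX : IsCompact (X t)) (q : ℕ) :
    Hr (tr E) (on k) (X t) (ovr ev X Dm t) q ≃ₗ[k]
      Hr (tr E) (on k) (ovr ev X Dp t) (ovr ev X (Dp ∩ Dm) t) q :=
  LinearEquiv.ofBijective _ (exc_bijective h2 hev hp hm hU hX q)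

section

variable [TopologicalSpace M] (h2 : (2 : k) ≠ 0) {ev : E → M} (hev : Continuous ev)
    {X : ℝ → Set E} {Dp Dm : Set M} (hp : IsClosed Dp) (hm : IsClosed Dm)
    (hU : Dp ∪ Dm = univ) {s t : ℝ}

@[simp] theorem excE_apply (hX : IsCompact (X t)) (q : ℕ) (x) :
    excE h2 hev hp hm hU hX q x = (resR (ovr_sub ev X Dp t)
      (ovr_mono (subset_refl _) inter_subset_right : ovr ev X (Dp ∩ Dm) t ⊆ ovr ev X Dm t) q :
      Hr (tr E) (on k) (X t) (ovr ev X Dm t) q →ₗ[k]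
        Hr (tr E) (on k) (ovr ev X Dp t) (ovr ev X (Dp ∩ Dm) t) q) x := rfl

/-- naturality of the excision isomorphism -/
theorem excE_nat (hXs : IsCompact (X s)) (hXt : IsCompact (X t)) (hst : X s ⊆ X t) (q : ℕ) (x) :
    (resR (ovr_mono hst (subset_refl Dp)) (ovr_mono hst (subset_refl (Dp ∩ Dm))) q :
      Hr (tr E) (on k) (ovr ev X Dp t) (ovr ev X (Dp ∩ Dm) t) q →ₗ[k]
        Hr (tr E) (on k) (ovr ev X Dp s) (ovr ev X (Dp ∩ Dm) s) q)
      (excE h2 hev hp hm hU hXt q x) =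
    excE h2 hev hp hm hU hXs q
      ((resR hst (ovr_mono hst (subset_refl Dm)) q :
        Hr (tr E) (on k) (X t) (ovr ev X Dm t) q →ₗ[k]
          Hr (tr E) (on k) (X s) (ovr ev X Dm s) q) x) := by
  rw [excE_apply, excE_apply, resR_resR, resR_resR]

/-- naturality of the inverse of the excision isomorphism -/
theorem excE_symm_nat (hXs : IsCompact (X s)) (hXt : IsCompact (X t)) (hst : X s ⊆ X t) (q : ℕ)
    (y) :
    (resR hst (ovr_mono hst (subset_refl Dm)) q :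
        Hr (tr E) (on k) (X t) (ovr ev X Dm t) q →ₗ[k]
          Hr (tr E) (on k) (X s) (ovr ev X Dm s) q) ((excE h2 hev hp hm hU hXt q).symm y) =
    (excE h2 hev hp hm hU hXs q).symm
      ((resR (ovr_mono hst (subset_refl Dp)) (ovr_mono hst (subset_refl (Dp ∩ Dm))) q :
        Hr (tr E) (on k) (ovr ev X Dp t) (ovr ev X (Dp ∩ Dm) t) q →ₗ[k]
          Hr (tr E) (on k) (ovr ev X Dp s) (ovr ev X (Dp ∩ Dm) s) q) y) := by
  rw [LinearEquiv.eq_symm_apply, ← excE_nat h2 hev hp hm hU hXs hXt hst, LinearEquiv.apply_symm_apply]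

end

end Gen

end Vale.Agent.P216.H83
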